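import Crest.Agent.X212.Sf30.P2Bas

/-!
# X212 / P2 (helper1): an innermost region (`Pt30.InnStmt`)
-/

set_option autoImplicit false
set_option linter.unusedSectionVars false

open Finset Classical

noncomputable section

namespace Crest.Agent.X212.Inn1

open Crest.Agent.X212.Hp13 Alg36 Cut21 Ind26 Pt30
open Sf30 hiding Inn
open Sup43 (Inn inn_up dp_up good_inn inn_desc)
open Kh11 (WS)

variable {P : Type} [PartialOrder P] [Fintype P] {M W : Set P} {e : P → P → ℤ} {c d : Ch P}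
  {x y : P}

theorem om_of (hc : c.top ∈ M) (hy : y ∈ c.1) (h : y ∉ M) : y ∈ Om M := ⟨h, _, hc, Ch.le_top hy⟩

theorem om_dn (hM : IsUpperSet M) (hx : x ∈ Om M) (h : y ≤ x) : y ∈ Om M :=
  ⟨fun k => hx.1 (hM h k), hx.2.imp fun _ k => ⟨k.1, h.trans k.2⟩⟩

theorem om_sd' {c : Ch P} : c ∈ Om (Ch.top ⁻¹' M) ↔ c.top ∈ Om M :=
  ⟨fun ⟨h1, _, h2, h3⟩ => ⟨h1, _, h2, Ch.top_mono h3⟩,
    fun ⟨h1, a, h2, h3⟩ => ⟨h1, tp c a h3, by simpa using h2, le_tp _ _ _⟩⟩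

theorem pr_sr (hx : x ∈ W) {u : P} (hu : u ∈ M) (h : x ≤ u) : Ch.pr x u h ∈ Sr M W :=
  ⟨by simpa using hu, x, by simp, hx⟩

theorem pr_qe (hx : x ∉ M) {u : P} (hu : u ∈ M) (h : x ≤ u) : Ch.pr x u h ∈ Qe M (cb (ind M)) :=
  mx_qe subset_rfl (mem_mx_ind.2 ⟨by simpa using hu, by simpa using hx⟩)

theorem qe_mem (h : c ∈ Qe M (cb (ind M))) : c.top ∈ M ∧ c.bot ∉ M :=
  (cb_ind_pos h.2).symm

theorem l01 (h : Z1 M e) (hc : c.top ∈ M) (hx : x ∈ c.1) : 0 ≤ e c.bot x ∧ e c.bot x ≤ 1 :=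
  ⟨h.nn hc (Ch.bot_le hx) (Ch.le_top hx), h.le1 hc (Ch.bot_le hx) (Ch.le_top hx)⟩

theorem lsub (h : Z1 M e) (hc : c.top ∈ M) (hx : x ∈ c.1) (hy : y ∈ c.1) (k : x ≤ y) :
    e c.bot y = e c.bot x + e x y := h.add hc (Ch.bot_le hx) k (Ch.le_top hy)

theorem lup (h : Z1 M e) (hd : d.top ∈ M) (k : c ≤ d) (hx : x ∈ c.1) :
    e d.bot x = e d.bot c.bot + e c.bot x := lsub h hd (k c.bot_mem) (k hx) (Ch.bot_le hx)

/-- the jumps out of `W` -/
def Ou (M W : Set P) (e : P → P → ℤ) : Prop :=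
  ∀ x ∈ W, ∀ y ∈ Om M, y ∉ W → (x ≤ y → e x y = 1) ∧ (y ≤ x → e y x = 1)

theorem lout (h : Z1 M e) (o : Ou M W e) (hc : c.top ∈ M) (hx : x ∈ c.1) (xW : x ∈ W)
    (hy : y ∈ c.1) (yM : y ∉ M) (yW : y ∉ W) : e c.bot x ≠ e c.bot y := by
  have a := o x xW y (om_of hc hy yM) yW
  rcases c.total hx hy with k | k
  · have := lsub h hc hx hy k; have := a.1 k; omega
  · have := lsub h hc hy hx k; have := a.2 k; omega

/-- the curve of an upper disc is connected -/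
theorem curve (hM : IsUpperSet M) (h3 : Mf 3 M) (hW : W ⊆ Om M) (hc : Conn (Sr M W))
    (he : 1 ≤ eu (Sr M W)) (up : ∀ x ∈ W, ∀ v ∈ Om M, x ≤ v → v ∈ W) : Conn (NXs M W) := by
  have nx : ∀ q ∈ Qe M (cb (ind M)), q ∉ Sr M W → ∀ c ∈ Sr M W, q ≤ c → c ∈ NXs M W :=
    fun q a b c k l => ⟨k.1, k.2, fun m => b ⟨(qe_mem a).1, _, q.bot_mem,
      up _ m _ (om_of k.1 (l q.bot_mem) (qe_mem a).2) (Ch.bot_anti l)⟩⟩
  have ex : ∀ c ∈ NXs M W, ∃ q ∈ Qe M (cb (ind M)), q ∉ Sr M W ∧ q ≤ c := fun c k => by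
    obtain ⟨a, ha, l⟩ := k.2.1
    refine ⟨_, pr_qe (om_dn hM (hW l) (Ch.bot_le ha)).1 k.1 c.bot_le_top, ?_,
      Cut21.pr_le c.bot_mem c.top_mem⟩
    rintro ⟨-, b, hb, m⟩
    rcases (by simpa using hb : b = c.bot ∨ b = c.top) with rfl | rfl
    exacts [k.2.2 m, (hW m).1 k.1]
  intro c k c' k'
  obtain ⟨q, a1, a2, a3⟩ := ex c k
  obtain ⟨q', b1, b2, b3⟩ := ex c' k'
  have := (z1_ind (V := M) hM).rim h3 (sr_sub hM hW) (sr_upper hM) hc he
    (fun _ t => Rch (NXs M W) c t) (fun q a b t m t' l l' => by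
      have i := nx q a b t m l
      have j := nx q a b t' (sr_upper hM l' m) (l.trans l')
      exact propext ⟨fun r => r.trans (Rch.of_cm i j (Or.inl l')),
        fun r => r.trans (Rch.of_cm j i (Or.inr l'))⟩) (fun _ _ _ _ _ _ _ _ _ => rfl)
    a1 a2 ⟨k.1, k.2.1⟩ a3 b1 b2 ⟨k'.1, k'.2.1⟩ b3
  exact this ▸ Rch.rfl

/-- the cells with a jump inside `W` -/
def Gj (M W : Set P) (e : P → P → ℤ) : Set (Ch P) :=
  {c | c.top ∈ M ∧ ∃ x ∈ c.1, x ∈ W ∧ ∃ y ∈ c.1, y ∈ W ∧ e c.bot x < e c.bot y}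

theorem gj_sub : Gj M W e ⊆ Sr M W := fun _ ⟨a, x, b, k, _⟩ => ⟨a, x, b, k⟩

theorem gj_up (hM : IsUpperSet M) (h : Z1 M e) : IsUpperSet (Gj M W e) :=
  fun c d l ⟨a, x, b, k, y, b', k', m⟩ => by
    have t := hM (Ch.top_mono l) a
    exact ⟨t, x, l b, k, y, l b', k', by rw [lup h t l b, lup h t l b']; omega⟩

theorem gj_mem (h : Z1 M e) (o : Ou M W e) (hc : c ∈ Gj M W e) (hy : y ∈ c.1) (yM : y ∉ M) :
    y ∈ W := by
  obtain ⟨a, x, b, k, x', b', k', m⟩ := hc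
  by_contra n
  have := lout h o a b k hy yM n
  have := lout h o a b' k' hy yM n
  have := l01 h a b
  have := l01 h a b'
  have := l01 h a hy
  omega

theorem gj_bot (h : Z1 M e) (hc : c ∈ Gj M W e) (hd : d.top ∈ M) (k : c ≤ d) :
    e d.bot c.bot = 0 := by
  obtain ⟨a, x, b, -, x', b', -, m⟩ := hc
  have := lup h hd k b'
  have := l01 h a b
  have := l01 h hd (k b')
  have := l01 h hd (k c.bot_mem)
  omega

theorem not_gj (h : Z1 M e) (hc : c.top ∈ M) (n : c ∉ Gj M W e) (hd : d.top ∈ M) (k : c ≤ d)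
    (hx : x ∈ c.1) (xW : x ∈ W) (hy : y ∈ c.1) (yW : y ∈ W) : e d.bot x = e d.bot y := by
  have a : ¬ e c.bot x < e c.bot y := fun m => n ⟨hc, x, hx, xW, y, hy, yW, m⟩
  have b : ¬ e c.bot y < e c.bot x := fun m => n ⟨hc, y, hy, yW, x, hx, xW, m⟩
  rw [lup h hd k hx, lup h hd k hy]; omega

theorem pr_not_gj (hW : W ⊆ Om M) {u : P} (hu : u ∈ M) (k : x ≤ u) : Ch.pr x u k ∉ Gj M W e := by
  rintro ⟨-, a, b, l, a', b', l', m⟩
  have i : ∀ a ∈ (Ch.pr x u k).1, a ∈ W → a = x := fun a b l =>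
    (by simpa using b : a = x ∨ a = u).resolve_right fun j => (hW l).1 (j ▸ hu)
  rw [i a b l, i a' b' l'] at m
  exact lt_irrefl _ m

/-- the bands are not discs -/
theorem gj_eu (hM : IsUpperSet M) (h3 : Mf 3 M) (h : Z1 M e) (hW : W ⊆ Om M) (o : Ou M W e)
    {X : Set (Ch P)} (hX : IsCmp (Gj M W e) X) : eu X ≤ 0 := by
  obtain ⟨c, hc⟩ := hX.ne
  obtain ⟨a, x, b, k, y, b', k', m⟩ := hX.sub hc
  have := (z1_ind (V := M) hM).eu_add_le h3 (hX.sub.trans (gj_sub.trans (sr_sub hM hW)))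
    (hX.upper (gj_up hM h)) hX.conn (fun q c => e c.bot q.bot)
    (fun q _ _ c i c' l l' => by
      have t := hM (Ch.top_mono l') (hX.sub i).1
      rw [lup h t l' (l q.bot_mem), gj_bot h (hX.sub i) t l', zero_add])
    (fun q i j c n q' i' l l' => not_gj h (qe_mem i).1
      (fun r => j (hX.clopen n r (Or.inr l'))) (hX.sub n).1 l' q.bot_mem
      (gj_mem h o (hX.sub n) (l' q.bot_mem) (qe_mem i).2) (l q'.bot_mem)
      (gj_mem h o (hX.sub n) (l' (l q'.bot_mem)) (qe_mem i').2))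
    {e c.bot x, e c.bot y} fun i hi => by
      rcases mem_insert.1 hi with rfl | hi
      · exact ⟨_, pr_qe (hW k).1 a (Ch.le_top b), fun r => pr_not_gj hW a _ (hX.sub r), c, hc,
          Cut21.pr_le b c.top_mem, by simp⟩
      · exact ⟨_, pr_qe (hW k').1 a (Ch.le_top b'), fun r => pr_not_gj hW a _ (hX.sub r), c, hc,
          Cut21.pr_le b' c.top_mem, by simp [mem_singleton.1 hi]⟩
  rw [card_pair m.ne] at this
  omega

/-- a flat disc is seen from one side -/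
theorem one_side (hM : IsUpperSet M) (h3 : Mf 3 M) (h : Z1 M e) (hW : W ⊆ Om M) (o : Ou M W e)
    {X : Set (Ch P)} (hX : IsCmp (Sr M W \ Gj M W e) X) (he : 1 ≤ eu X) {g a b : Ch P}
    (hg : g ∈ Gj M W e) (ha : a ∈ X) (hb : b ∈ X) (k : a ≤ g) (l : b ≤ g) :
    e g.bot a.bot = e g.bot b.bot := by
  have z := z1_ind (V := M) hM
  have : IsCoc M (cb (ind M)) := ⟨z.coc⟩
  have S : X ⊆ Mx M (cb (ind M)) := fun _ i => sr_sub hM hW (hX.sub i).1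
  have Q := S.trans (mx_qe subset_rfl)
  have gq := mx_qe subset_rfl (sr_sub hM hW (gj_sub hg))
  have low : ∀ {q a g : Ch P}, q ∈ Qe M (cb (ind M)) → a ∈ X → g ∈ Gj M W e → q ≤ a → a ≤ g →
      q ∈ X := fun {q a g} i j n l l' => hX.clopen j ⟨⟨(qe_mem i).1, _, q.bot_mem,
        gj_mem h o n (l' (l q.bot_mem)) (qe_mem i).2⟩, fun r => (hX.sub j).2 (gj_up hM h l r)⟩
        (Or.inr l)
  by_contra hn
  have := Sf30.eu_add_le (z.mf h3 S) ((z.conn_pre Q).2 hX.conn)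
    (fun c => if ch c.top ∈ Gj M W e then some (e (ch c.top).bot (ch c.bot).bot) else none)
    (fun c ⟨⟨p, p1, p2⟩, q, q1, q2⟩ d l => ?_) {some (e g.bot a.bot), some (e g.bot b.bot)}
    fun i hi => ?_
  · rw [card_pair (by simpa using hn), z.eu_pre Q] at this
    omega
  · have t : ch c.top ≤ ch d.top := lv_ch_le (Ch.top_mono l)
    by_cases n : ch c.top ∈ Gj M W e
    · have n' := gj_up hM h t n
      have u : ch d.bot ≤ ch c.bot := lv_ch_le (Ch.bot_anti l)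
      have v : ch c.bot ≤ ch c.top := lv_ch_le c.bot_le_top
      have w := low (ch_mem c.bot) p2 n (lv_ch_le (Ch.bot_le p1)) (lv_ch_le (Ch.le_top p1))
      rw [if_pos n, if_pos n', lup h n'.1 t (v (u (Ch.bot_mem _))), gj_bot h n n'.1 t, zero_add]
      exact congrArg _ (not_gj h (hX.sub w).1.1 (hX.sub w).2 n.1 v (Ch.bot_mem _)
        (gj_mem h o n (v (Ch.bot_mem _)) (qe_mem (ch_mem _)).2) (u (Ch.bot_mem _))
        (gj_mem h o n (v (u (Ch.bot_mem _))) (qe_mem (ch_mem _)).2))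
    · have n' : ch d.top ∉ Gj M W e := fun n' => q2 (hX.clopen p2 ⟨⟨(qe_mem (ch_mem q)).1, _,
        Ch.bot_mem _, gj_mem h o n' (lv_ch_le (Ch.le_top (l q1)) (Ch.bot_mem _))
          (qe_mem (ch_mem q)).2⟩,
        fun r => n (gj_up hM h (lv_ch_le (Ch.le_top q1)) r)⟩ (z.ch_cm.2 (c.cm p1 q1)))
      rw [if_neg n, if_neg n']
  · have ex : ∀ a ∈ X, a ≤ g → ∃ c ∈ mix (ch ⁻¹' X : Set (Lv M (cb (ind M)))),
        ch c.top = g ∧ ch c.bot = a := fun a i j =>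
      have l' : cel (Q i) ≤ cel gq := z.ch_le.1 j
      ⟨Ch.pr _ _ l', ⟨⟨cel (Q i), by simp, i⟩, cel gq, by simp, fun r => (hX.sub r).2 hg⟩,
        by simp, by simp⟩
    rcases mem_insert.1 hi with rfl | hi
    · obtain ⟨c, i, j, n⟩ := ex a ha k
      exact ⟨c, i, by simp only [j, n, if_pos hg]⟩
    · obtain ⟨c, i, j, n⟩ := ex b hb l
      exact ⟨c, i, by simp only [j, n, if_pos hg, mem_singleton.1 hi]⟩

/-- STEP 1: a flat disc -/
theorem exists_flat (hM : IsUpperSet M) (h3 : Mf 3 M) (hN : Nice M) (h : Z1 M e) (hW : W ⊆ Om M)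
    (o : Ou M W e) (hc : Conn (Sr M W)) (he : 1 ≤ eu (Sr M W))
    (ne : ∃ x ∈ W, ∃ y ∈ Om M, y ∉ W ∧ Cm x y) :
    ∃ V ⊆ W, Conn (Sr M V) ∧ 1 ≤ eu (Sr M V) ∧ Ou M V e ∧ (∃ x ∈ V, ∃ y ∈ Om M, y ∉ V ∧ Cm x y) ∧
      ∀ x ∈ V, ∀ y ∈ V, x ≤ y → e x y = 0 := by
  have z := z1_ind (V := M) hM
  have : IsCoc M (cb (ind M)) := ⟨z.coc⟩
  have S := sr_sub hM hW
  have Q := S.trans (mx_qe subset_rfl)
  obtain ⟨X, hX, eX⟩ : ∃ X, IsCmp (Sr M W \ Gj M W e) X ∧ 1 ≤ eu X := by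
    by_contra k
    push Not at k
    have col : Col (ch ⁻¹' Sr M W : Set (Lv M (cb (ind M)))) (ch ⁻¹' Gj M W e)
        (ch ⁻¹' (Sr M W \ Gj M W e)) := col_diff (Set.preimage_mono gj_sub)
    have a := sum_reg (z.mf h3 S) col
    have b := wt_nonneg (z.mf h3 S) col
    have := sum_nonpos (s := cs (ch ⁻¹' Gj M W e : Set (Lv M (cb (ind M)))) ∪
      cs (ch ⁻¹' (Sr M W \ Gj M W e))) (f := eu) fun X hX => by
        rcases mem_reg.1 hX with i | i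
        · obtain ⟨C, j, rfl⟩ := z.cmp_ex (gj_sub.trans Q) i
          rw [z.eu_pre (j.sub.trans (gj_sub.trans Q))]
          exact gj_eu hM h3 h hW o j
        · obtain ⟨C, j, rfl⟩ := z.cmp_ex (Set.sdiff_subset.trans Q) i
          rw [z.eu_pre (j.sub.trans (Set.sdiff_subset.trans Q))]
          have := k C j
          omega
    rw [z.eu_pre Q] at a
    omega
  let V : Set P := {x | x ∈ W ∧ ∃ c ∈ X, x ∈ c.1}
  have pX : ∀ x ∈ V, ∀ u ∈ M, ∀ k : x ≤ u, Ch.pr x u k ∈ X := by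
    rintro x ⟨xW, c, i, j⟩ u hu k
    have H : ∀ u ∈ M, ∀ k : x ≤ u, Ch.pr x u k ∈ Sr M W \ Gj M W e := fun u hu k =>
      ⟨pr_sr xW hu k, pr_not_gj hW hu k⟩
    refine ((Nice.ctr_ge hM.ordConnected hN (hW xW)).conn c.top ⟨(hX.sub i).1.1, Ch.le_top j⟩
      u ⟨hu, k⟩).ind (p := fun u => ∀ k : x ≤ u, Ch.pr x u k ∈ X)
      (fun k => hX.clopen i (H _ (hX.sub i).1.1 k) (Or.inr (Cut21.pr_le j c.top_mem))) ?_ k
    intro a ha b hb l
    have l' : (Ch.pr x a ha.2).top ≤ b := by simpa using l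
    have t : tp _ b l' ∈ Sr M W \ Gj M W e := by
      refine ⟨⟨by simpa using hb.1, x, by simp, xW⟩, ?_⟩
      rintro ⟨-, p, p1, p2, q, q1, q2, m⟩
      have i : ∀ p ∈ (tp _ b l').1, p ∈ W → p = x := fun p p1 p2 => by
        rcases (by simpa using p1 : p = b ∨ p = x ∨ p = a) with rfl | r | rfl
        exacts [absurd hb.1 (hW p2).1, r, absurd ha.1 (hW p2).1]
      rw [i p p1 p2, i q q1 q2] at m
      exact lt_irrefl _ m
    have t1 := le_tp _ b l'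
    have t2 : Ch.pr x b hb.2 ≤ tp _ b l' := Cut21.pr_le (by simp) (by simp)
    exact ⟨fun r _ => hX.clopen (hX.clopen (r ha.2) t (Or.inl t1)) (H b hb.1 _) (Or.inr t2),
      fun r _ => hX.clopen (hX.clopen (r hb.2) t (Or.inl t2)) (H a ha.1 _) (Or.inr t1)⟩
  have nj : ∀ c, c.top ∈ M → (∀ x ∈ c.1, x ∈ W → x ∈ V) → c ∉ Gj M W e := by
    rintro c t i ⟨-, p, p1, p2, q, q1, q2, m⟩
    have := one_side hM h3 h hW o hX eX ⟨t, p, p1, p2, q, q1, q2, m⟩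
      (pX p (i p p1 p2) _ t (Ch.le_top p1)) (pX q (i q q1 q2) _ t (Ch.le_top q1))
      (Cut21.pr_le p1 c.top_mem) (Cut21.pr_le q1 c.top_mem)
    simp only [Ch.bot_pr] at this
    omega
  have tri : ∀ x y, x ≤ y → y ∈ W → ∃ c : Ch P, c.top ∈ M ∧ c.bot = x ∧ x ∈ c.1 ∧ y ∈ c.1 ∧
      ∀ p ∈ c.1, p ∈ W → p = x ∨ p = y := fun x y l k => by
    obtain ⟨u, hu, l'⟩ := (hW k).2
    refine ⟨tp (Ch.pr x y l) u (by simpa using l'), by simpa using hu, by simp, by simp, by simp,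
      fun p p1 p2 => ?_⟩
    rcases (by simpa using p1 : p = u ∨ p = x ∨ p = y) with rfl | r
    exacts [absurd hu (hW p2).1, r]
  have ws : WS X (Sr M V) id := WS.of_int' (fun c i => by
      obtain ⟨a, x, b, k⟩ := (hX.sub i).1
      exact ⟨a, x, b, k, c, i, b⟩) fun c ⟨a, x, b, k⟩ => by
    have m : Mt (W \ V)ᶜ c := ⟨x, b, fun r => r.2 k⟩
    have t : c.top ∈ (rs (W \ V)ᶜ c).1 := (mem_rs m).2 ⟨c.top_mem, fun r => (hW r.1).1 a⟩
    have t' := hM (Ch.le_top t) a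
    have b' : x ∈ (rs (W \ V)ᶜ c).1 := (mem_rs m).2 ⟨b, fun r => r.2 k⟩
    refine ⟨rs (W \ V)ᶜ c, hX.clopen (pX x k _ t' (Ch.le_top b')) ⟨⟨t', x, b', k.1⟩,
      nj _ t' fun p p1 p2 => by_contra fun r => ((mem_rs m).1 p1).2 ⟨p2, r⟩⟩
      (Or.inl (Cut21.pr_le b' (Ch.top_mem _))), rs_le m, fun g i l p p1 =>
        (mem_rs m).2 ⟨l p1, fun r => r.2 ⟨r.1, g, i, p1⟩⟩⟩
  have jump : ∀ c : Ch P, c.top ∈ M → ∀ x ∈ c.1, x ∈ V → ∀ y ∈ c.1, y ∈ W → y ∉ V →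
      c ∈ Gj M W e := fun c t x b k y b' k' n => by_contra fun r =>
    n ⟨k', c, hX.clopen (pX x k _ t (Ch.le_top b)) ⟨⟨t, x, b, k.1⟩, r⟩
      (Or.inl (Cut21.pr_le b c.top_mem)), b'⟩
  have one : ∀ x y, x ≤ y → y ∈ W → (x ∈ V ∧ y ∉ V ∨ y ∈ V ∧ x ∈ W ∧ x ∉ V) → e x y = 1 := by
    intro x y l k r
    obtain ⟨c, t, rfl, b, b', i⟩ := tri x y l k
    obtain ⟨-, p, p1, p2, q, q1, q2, m⟩ := r.elim (fun r => jump c t _ b r.1 y b' k r.2)
      fun r => jump c t y b' r.1 _ b r.2.1 r.2.2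
    have := l01 h t b'
    have := h.self t c.bot_le_top
    rcases i p p1 p2 with rfl | rfl <;> rcases i q q1 q2 with rfl | rfl <;> omega
  refine ⟨V, fun _ k => k.1, ws.conn_iff.1 hX.conn, ws.eu_eq ▸ eX, fun x k y m n => ?_, ?_,
    fun x k y k' l => ?_⟩
  · by_cases r : y ∈ W
    · exact ⟨fun l => one x y l r (Or.inl ⟨k, n⟩), fun l => one y x l k.1 (Or.inr ⟨k, r, n⟩)⟩
    · exact o x k.1 y m r
  · by_contra k
    push Not at k
    obtain ⟨x, a, y, b, n, l⟩ := ne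
    obtain ⟨g, i⟩ := hX.ne
    obtain ⟨-, p, p1, p2⟩ := (hX.sub i).1
    have := Rch.in_clopen (C := V) (fun a i b j l => by_contra fun r => k a i b (hW j) r l)
      ⟨p2, g, i, p1⟩ ((ws_sr hM hN hW).conn_iff.1 hc p p2 x a)
    exact k x (this.mem ⟨p2, g, i, p1⟩) y b (fun r => n r.1) l
  · obtain ⟨c, t, rfl, b, b', i⟩ := tri x y l k'.1
    have := not_gj h t (nj c t fun p p1 p2 => (i p p1 p2).elim (· ▸ k) (· ▸ k')) t le_rfl b k.1
      b' k'.1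
    rw [← this, h.self t c.bot_le_top]

/-- a rim cell -/
theorem cell (hW : W ⊆ Om M) (hx : x ∈ W) (hy : y ∈ Om M) (n : y ∉ W) (k : Cm x y) :
    ∃ q ∈ Qe M (cb (ind M)), q ∉ Sr M W ∧ ∃ c ∈ Sr M W, q ≤ c ∧ q.bot = y ∧
      (x ≤ y → c.bot = x) ∧ (y ≤ x → c.bot = y) := by
  have nq : ∀ u ∈ M, ∀ l : y ≤ u, Ch.pr y u l ∉ Sr M W := by
    rintro u hu l ⟨-, b, hb, m⟩
    rcases (by simpa using hb : b = y ∨ b = u) with rfl | rfl
    exacts [n m, (hW m).1 hu]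
  have ne : x ≤ y → y ≤ x → False := fun a b => n (le_antisymm a b ▸ hx)
  rcases k with k | k
  · obtain ⟨u, hu, l⟩ := hy.2
    exact ⟨_, pr_qe hy.1 hu l, nq u hu l, tp (Ch.pr x y k) u (by simpa using l),
      ⟨by simpa using hu, x, by simp, hx⟩, Cut21.pr_le (by simp) (by simp), by simp,
      fun _ => by simp, fun r => (ne k r).elim⟩
  · obtain ⟨u, hu, l⟩ := (hW hx).2
    exact ⟨_, pr_qe hy.1 hu (k.trans l), nq u hu _, tp (Ch.pr y x k) u (by simpa using l),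
      ⟨by simpa using hu, x, by simp, hx⟩, Cut21.pr_le (by simp) (by simp), by simp,
      fun r => (ne r k).elim, fun _ => by simp⟩

theorem eu_le (hM : IsUpperSet M) (h3 : Mf 3 M) (hW : W ⊆ Om M) (hc : Conn (Sr M W))
    (ne : ∃ x ∈ W, ∃ y ∈ Om M, y ∉ W ∧ Cm x y) : eu (Sr M W) ≤ 1 := by
  obtain ⟨x, a, y, b, n, l⟩ := ne
  obtain ⟨q, i, j, c, k, m, -⟩ := cell hW a b n l
  exact (z1_ind (V := M) hM).eu_le_one h3 (sr_sub hM hW) hc k i j (Or.inr m)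

/-- STEP 2: a flat disc is upper or lower -/
theorem hi_lo (hM : IsUpperSet M) (h3 : Mf 3 M) (h : Z1 M e) (hW : W ⊆ Om M) (o : Ou M W e)
    (hc : Conn (Sr M W)) (he : 1 ≤ eu (Sr M W)) :
    (∀ x ∈ W, ∀ v ∈ Om M, x ≤ v → v ∈ W) ∨ ∀ x ∈ W, ∀ v, v ≤ x → v ∈ W := by
  by_contra k
  push Not at k
  obtain ⟨⟨x, a, y, b, l, n⟩, x', a', y', l', n'⟩ := k
  have b' := om_dn hM (hW a') l'
  obtain ⟨q, i, j, c, k, m, e1, e2, -⟩ := cell hW a b n (Or.inl l)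
  obtain ⟨q', i', j', c', k', m', e1', -, e2'⟩ := cell hW a' b' n' (Or.inr l')
  have nb : ∀ q ∈ Qe M (cb (ind M)), q ∉ Sr M W → ∀ p ∈ q.1, p ∉ W := fun q i j p p1 p2 =>
    j ⟨(qe_mem i).1, p, p1, p2⟩
  have := (z1_ind (V := M) hM).rim h3 (sr_sub hM hW) (sr_upper hM) hc he
    (fun q c => e c.bot q.bot) (fun q i j c ⟨t, p, p1, p2⟩ c' l l' => by
      have t' := hM (Ch.top_mono l') t
      have := lout h o t p1 p2 (l q.bot_mem) (qe_mem i).2 (nb q i j _ q.bot_mem)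
      have := l01 h t p1
      have := l01 h t (l q.bot_mem)
      have := l01 h t' (l' p1)
      have := l01 h t' (l' (l q.bot_mem))
      have := l01 h t' (l' c.bot_mem)
      have := lup h t' l' p1
      have := lup h t' l' (l q.bot_mem)
      omega)
    (fun q i j c ⟨t, p, p1, p2⟩ q' i' l l' => by
      have := lout h o t p1 p2 (l' q.bot_mem) (qe_mem i).2 (nb q i j _ q.bot_mem)
      have := lout h o t p1 p2 (l' (l q'.bot_mem)) (qe_mem i').2 (nb q i j _ (l q'.bot_mem))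
      have := l01 h t p1
      have := l01 h t (l' q.bot_mem)
      have := l01 h t (l' (l q'.bot_mem))
      omega) i j k m i' j' k' m'
  obtain ⟨u, hu, r⟩ := b'.2
  simp only [e1, e2 l, e1', e2' l', (o x a y b n).1 l, h.self hu r] at this
  exact one_ne_zero this

/-- the chains of the boundary that start in a lower set -/
theorem ws_low (hM : IsUpperSet M) (hN : Nice M) (hN' : Nice (Ch.top ⁻¹' M : Set (Ch P)))
    (hW : W ⊆ Om M) : let E : Set (Ch P) := {c | c.top ∈ Om M ∧ c.bot ∈ W}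
    (Conn (Sr M W) → Conn (Sr (Ch.top ⁻¹' M) E)) ∧ eu (Sr (Ch.top ⁻¹' M) E) = eu (Sr M W) := by
  intro E
  have a := ws_sr (M := Ch.top ⁻¹' M) (W := E) (fun _ _ l k => hM (Ch.top_mono l) k) hN' fun _ k => om_sd'.2 k.1
  have b : WS (Kh11.In W Set.univ) E id := WS.of_int'
    (fun c k => ⟨hW (k.1 _ c.top_mem), k.1 _ c.bot_mem⟩) fun c k =>
      have m : Mt W c := ⟨_, c.bot_mem, k.2⟩
      ⟨rs W c, ⟨fun _ l => ((mem_rs m).1 l).2, trivial⟩, rs_le m,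
        fun d i l p p1 => (mem_rs m).2 ⟨l p1, i.1 p p1⟩⟩
  have c := Kh11.ws_top W
  have d := ws_sr hM hN hW
  exact ⟨fun k => a.conn_iff.2 (b.conn_iff.1 (c.conn_iff.2 (d.conn_iff.1 k))),
    by rw [a.eu_eq, ← b.eu_eq, c.eu_eq, d.eu_eq]⟩

theorem inn : InnStmt := by
  intro s e W hs h v g
  have G := good_inn hs.toGood hs.thick
  have G' := good_inn (stt_sd hs).toGood (stt_sd hs).thick
  have hM : IsUpperSet (Inn s.A) := inn_up
  have I : Inn s.sd.A = Ch.top ⁻¹' Inn s.A := inn_desc (Desc.sd s)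
  obtain ⟨V, a, c, u, o, ne, fl⟩ := exists_flat hM G.mf G.nice h g.sub g.out g.conn g.eu.ge g.ne
  have hV := a.trans g.sub
  have u' := le_antisymm (eu_le hM G.mf hV c ne) u
  obtain ⟨x, x1, y, y1, y2, l⟩ := ne
  rcases hi_lo hM G.mf h hV o c u with up | dn
  · refine Or.inl ⟨V, hV, c, u', curve hM G.mf hV c u up, fun x k w m => ?_, up,
      fun x k y m n => (o x k y (om_dn hM (hV k) m) n).2 m,
      ⟨x, x1, y, l.resolve_left fun r => y2 (up x x1 y y1 r), y2⟩,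
      g.side.imp (fun r x k y m => r x (a k) y (om_dn hM (hV k) m) (Or.inr m))
        fun r x k y m => r x (a k) y (om_dn hM (hV k) m) (Or.inr m)⟩
    refine le_antisymm (not_lt.1 fun r => ?_) (h.mono _ _ m)
    obtain ⟨n, n1, n2, n3, n4, -⟩ := v.vert x w (hV k).1 m r
    obtain ⟨t, t1, t2⟩ := dp_up hM m
    exact n3.ne' (fl x k n (up x k n ⟨n4, t, t1, n2.trans t2⟩ n1) n1)
  · have N' : Nice (Ch.top ⁻¹' Inn s.A : Set (Ch s.P)) := I ▸ G'.nice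
    have F' : Mf 3 (Ch.top ⁻¹' Inn s.A : Set (Ch s.P)) := I ▸ G'.mf
    obtain ⟨c', u''⟩ := ws_low hM G.nice N' hV
    have sub : {c : Ch s.P | c.top ∈ Om (Inn s.A) ∧ c.bot ∈ V} ⊆ Om (Ch.top ⁻¹' Inn s.A) :=
      fun _ k => om_sd'.2 k.1
    have up : ∀ c ∈ {c : Ch s.P | c.top ∈ Om (Inn s.A) ∧ c.bot ∈ V},
        ∀ d ∈ Om (Ch.top ⁻¹' Inn s.A : Set (Ch s.P)), c ≤ d →
          d ∈ {c : Ch s.P | c.top ∈ Om (Inn s.A) ∧ c.bot ∈ V} :=
      fun c k d m r => ⟨om_sd'.1 m, dn _ k.2 _ (Ch.bot_anti r)⟩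
    have xy : x ≤ y := l.resolve_right fun r => y2 (dn x x1 y r)
    refine Or.inr ⟨{c : Ch s.P | c.top ∈ Om (Inn s.A) ∧ c.bot ∈ V}, I ▸ sub, I ▸ c' c,
      I ▸ u''.trans u', I ▸ curve (fun _ _ l k => hM (Ch.top_mono l) k) F' sub (c' c)
        (u''.trans u').ge up,
      fun c k d m => fl _ (dn _ k.2 _ (Ch.bot_anti m.1)) _ k.2 (Ch.bot_anti m.1), I ▸ up,
      fun c k d m n => ?_, ⟨Ch.pr x y xy, ⟨by simpa using y1, by simpa using x1⟩, Ch.pt y,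
        Ch.pt_le.2 (by simp), fun r => y2 (by simpa using r.2)⟩,
      g.side.imp (fun r c k d m => r _ (a k.2) _ (om_dn hM k.1 (Ch.top_mono m))
        (Or.inl (Ch.bot_le (m d.top_mem)))) fun r c k d m b i j => r _ (a k.2) _
          (om_dn hM k.1 (Ch.top_mono m)) (Or.inl (Ch.bot_le (m d.top_mem))) b.top
          (by have : b ∈ Fr (Ch.top ⁻¹' s.A) := i; rwa [fr_sd] at this) (Ch.top_mono j)⟩
    have t := om_dn hM k.1 (Ch.top_mono m)
    exact (o _ k.2 _ (om_dn hM t d.bot_le_top) fun r => n ⟨t, r⟩).1 (Ch.bot_anti m)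

end Crest.Agent.X212.Inn1
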